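import Vale.Agent.P164.Dichotomy

/-!
P164: for SLE, every deterministic gauge either works almost surely on all segments or fails almost
surely on some segment; in the open half-plane it treats all segments alike.
-/

open MeasureTheory ProbabilityTheory Set
open scoped NNReal ENNReal

namespace Vale.Agent.Results.P164.GaugeTrichotomy

open Vale.Agent.P164

theorem result {κ : ℝ} (hκ : 0 < κ) (hκ8 : κ < 8) {Ω : Type*} [MeasurableSpace Ω]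
    (P : Measure Ω) [IsProbabilityMeasure P] (B : ℝ≥0 → Ω → ℝ) (hB : IsBrownianReal B P)
    (γ : Ω → ℝ≥0 → ℂ) (hγ : ∀ᵐ ω ∂P, IsTrace (fun t => √κ * B t ω) (γ ω))
    (h : ℝ → ℝ) (hh : IsGauge h) :
    ((∀ᵐ ω ∂P, ∀ s t : ℝ≥0, 0 < s → s < t →
        0 < gaugeMeasure h (γ ω '' Icc s t) ∧ gaugeMeasure h (γ ω '' Icc s t) < ∞) ∨
      (∀ᵐ ω ∂P, ∃ s t : ℝ≥0, 0 < s ∧ s < t ∧
        (gaugeMeasure h (γ ω '' Icc s t) = 0 ∨ gaugeMeasure h (γ ω '' Icc s t) = ∞))) ∧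
    ((∀ᵐ ω ∂P, ∀ s t : ℝ≥0, s < t →
        gaugeMeasure h (γ ω '' Icc s t ∩ {z | 0 < z.im}) = 0) ∨
      (∀ᵐ ω ∂P, ∀ s t : ℝ≥0, s < t → ∃ l : ℝ, 0 < l ∧
        gaugeMeasure h (γ ω '' Icc s t ∩ {z | l ≤ z.im}) = ∞) ∨
      (∀ᵐ ω ∂P, ∀ s t : ℝ≥0, s < t →
        0 < gaugeMeasure h (γ ω '' Icc s t ∩ {z | 0 < z.im}) ∧
        ∀ l : ℝ, 0 < l → gaugeMeasure h (γ ω '' Icc s t ∩ {z | l ≤ z.im}) < ∞)) ∧
    ((∀ᵐ ω ∂P, ∀ s t : ℝ≥0, s < t → gaugeMeasure h (γ ω '' Icc s t) < ∞) ∨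
      (∀ᵐ ω ∂P, ∀ t : ℝ≥0, 0 < t → gaugeMeasure h (γ ω '' Icc 0 t) = ∞)) ∧
    ∀ a : ℝ≥0, 0 < a →
      0 < P {ω | 0 < gaugeMeasure h (γ ω '' Icc 0 a ∩ {z | 0 < z.im}) ∧
        gaugeMeasure h (γ ω '' Icc 0 a) < ∞} →
      ∀ᵐ ω ∂P, ∀ s t : ℝ≥0, s < t →
        0 < gaugeMeasure h (γ ω '' Icc s t) ∧ gaugeMeasure h (γ ω '' Icc s t) < ∞ :=
  ⟨exact_dichotomy hB hκ hκ8 hγ hh, (trichotomy hB κ hγ hh).1, (trichotomy hB κ hγ hh).2,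
    fun _ ha hp => every_segment_of_one hB κ hγ hh ha hp⟩

end Vale.Agent.Results.P164.GaugeTrichotomy
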